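/-
Helper56 — S0175 project, package SH-a (shape calculus, first half):
proofs of the `Spec` statements `wMin_pos`, `wMin_lt`, `shH_wMin`, `shH_pos`, `shL12_ge_one`,
`shL23_ge_one`, `shG_nonneg`, `shG_le_three`, `shape_contDiffAt`, `shF_strictAnti`,
`shF_deriv_neg` of `Crest.Agent.Helper32.GeomSpec` (same statements, namespace
`Crest.Agent.Helper56`).  Plain 1-D real analysis with `Real.rpow`.
-/
import Crest.Agent.Helper32.GeomDefs

set_option autoImplicit false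
set_option linter.unusedVariables false
open MeasureTheory Set Filter Topology
open scoped ENNReal ContDiff
open Crest.AnalysisR.OT
open Crest.Agent.Helper32

namespace Crest.Agent.Helper56

/-! ### elementary facts about the shape parameter -/

theorem shP_pos_of (w : ℝ) (hw' : 2 * w ^ 2 < 1) : 0 < shP w := by
  unfold shP; linarith

theorem shP_le_one (w : ℝ) : shP w ≤ 1 := by
  unfold shP; nlinarith [sq_nonneg w]

theorem w_le_one_of (w : ℝ) (hw' : 2 * w ^ 2 < 1) : w ≤ 1 := by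
  nlinarith [sq_nonneg (w - 1), sq_nonneg w]

theorem shP_lt_of (w w' : ℝ) (hw : 0 < w) (hww' : w < w') : shP w' < shP w := by
  unfold shP; nlinarith

theorem wMin_sq (s : ℝ) : (wMin s) ^ 2 = 1 / ((2:ℝ) ^ (s + 2) + 2) := by
  unfold wMin
  have hA : (0:ℝ) < (2:ℝ) ^ (s + 2) := Real.rpow_pos_of_pos (by norm_num) _
  rw [Real.sq_sqrt (by positivity)]

theorem wMin_pos (s : ℝ) (hs : 0 < s) : 0 < wMin s := by
  unfold wMin
  have hA : (0:ℝ) < (2:ℝ) ^ (s + 2) := Real.rpow_pos_of_pos (by norm_num) _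
  exact Real.sqrt_pos.mpr (by positivity)

theorem wMin_lt (s : ℝ) (hs : 0 < s) : 2 * (wMin s) ^ 2 < 1 := by
  have hA : (0:ℝ) < (2:ℝ) ^ (s + 2) := Real.rpow_pos_of_pos (by norm_num) _
  rw [wMin_sq, mul_one_div, div_lt_one (by positivity)]
  linarith

theorem shH_wMin (s : ℝ) (hs : 0 < s) : shH s (wMin s) = 0 := by
  have hA : (0:ℝ) < (2:ℝ) ^ (s + 2) := Real.rpow_pos_of_pos (by norm_num) _
  have hw : 0 < wMin s := wMin_pos s hs
  have hs2 : s + 2 ≠ 0 := by positivity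
  have hP : shP (wMin s) = (2:ℝ) ^ (s + 2) * (wMin s) ^ 2 := by
    unfold shP
    rw [wMin_sq]
    field_simp
    ring
  have h2 : ((2:ℝ) ^ (s + 2)) ^ (-(1 / (s + 2))) = 1 / 2 := by
    rw [← Real.rpow_mul (by norm_num : (0:ℝ) ≤ 2)]
    have : (s + 2) * (-(1 / (s + 2))) = -1 := by field_simp
    rw [this, Real.rpow_neg_one]
    norm_num
  have h3 : ((wMin s) ^ 2) ^ (-(1 / (s + 2))) = shL23 s (wMin s) := by
    unfold shL23
    rw [← Real.rpow_two, ← Real.rpow_mul hw.le]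
    congr 1
    field_simp
  have h12 : shL12 s (wMin s) = shL23 s (wMin s) / 2 := by
    unfold shL12
    rw [hP, Real.mul_rpow hA.le (sq_nonneg _), h2, h3]
    ring
  unfold shH
  rw [h12]
  ring

/-- `shH s` is strictly increasing on `(0, 1/√2)` -/
theorem shH_lt (s : ℝ) (hs : 0 < s) (w w' : ℝ) (hw : 0 < w) (hww' : w < w')
    (hw' : 2 * w' ^ 2 < 1) : shH s w < shH s w' := by
  have hP' : 0 < shP w' := shP_pos_of w' hw'
  have hPP : shP w' < shP w := shP_lt_of w w' hw hww'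
  have hs2 : 0 < s + 2 := by positivity
  have h12 : shL12 s w < shL12 s w' := by
    unfold shL12
    exact Real.rpow_lt_rpow_of_neg hP' hPP (by
      have : 0 < 1 / (s + 2) := by positivity
      linarith)
  have h23 : shL23 s w' < shL23 s w := by
    unfold shL23
    exact Real.rpow_lt_rpow_of_neg hw hww' (by
      have : 0 < 2 / (s + 2) := by positivity
      linarith)
  have h12n : 0 ≤ shL12 s w := by
    unfold shL12
    exact Real.rpow_nonneg (hP'.le.trans hPP.le) _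
  have h23n : 0 ≤ shL23 s w' := by
    unfold shL23
    exact Real.rpow_nonneg (hw.le.trans hww'.le) _
  have h12s : (shL12 s w) ^ 2 < (shL12 s w') ^ 2 := pow_lt_pow_left₀ h12 h12n (by norm_num)
  have h23s : (shL23 s w') ^ 2 < (shL23 s w) ^ 2 := pow_lt_pow_left₀ h23 h23n (by norm_num)
  unfold shH
  linarith

theorem shH_pos (s : ℝ) (hs : 0 < s) (w : ℝ) (hw : wMin s < w) (hw' : 2 * w ^ 2 < 1) :
    0 < shH s w := by
  have h := shH_lt s hs (wMin s) w (wMin_pos s hs) hw hw'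
  rwa [shH_wMin s hs] at h

theorem shL12_ge_one (s : ℝ) (hs : 0 < s) (w : ℝ) (hw : 0 < w) (hw' : 2 * w ^ 2 < 1) :
    1 ≤ shL12 s w := by
  unfold shL12
  have : 0 < 1 / (s + 2) := by positivity
  exact Real.one_le_rpow_of_pos_of_le_one_of_nonpos (shP_pos_of w hw') (shP_le_one w)
    (by linarith)

theorem shL23_ge_one (s : ℝ) (hs : 0 < s) (w : ℝ) (hw : 0 < w) (hw' : 2 * w ^ 2 < 1) :
    1 ≤ shL23 s w := by
  unfold shL23
  have : 0 < 2 / (s + 2) := by positivity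
  exact Real.one_le_rpow_of_pos_of_le_one_of_nonpos hw (w_le_one_of w hw') (by linarith)

theorem shG_nonneg (s : ℝ) (hs : 0 < s) (w : ℝ) (hw : 0 < w) (hw' : 2 * w ^ 2 < 1) :
    0 ≤ shG s w := by
  unfold shG
  have h1 : 0 ≤ (shP w) ^ (s / (s + 2)) := Real.rpow_nonneg (shP_pos_of w hw').le _
  have h2 : 0 ≤ w ^ (2 * s / (s + 2)) := Real.rpow_nonneg hw.le _
  linarith

theorem shG_le_three (s : ℝ) (hs : 0 < s) (w : ℝ) (hw : 0 < w) (hw' : 2 * w ^ 2 < 1) :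
    shG s w ≤ 3 := by
  unfold shG
  have h1 : (shP w) ^ (s / (s + 2)) ≤ 1 :=
    Real.rpow_le_one (shP_pos_of w hw').le (shP_le_one w) (by positivity)
  have h2 : w ^ (2 * s / (s + 2)) ≤ 1 :=
    Real.rpow_le_one hw.le (w_le_one_of w hw') (by positivity)
  linarith

theorem shP_contDiff : ContDiff ℝ ∞ shP := by
  unfold shP
  fun_prop

/-- smoothness of the shape functions on `(0, 1/√2)` -/
theorem shape_contDiffAt (s : ℝ) (hs : 0 < s) (w : ℝ) (hw : 0 < w) (hw' : 2 * w ^ 2 < 1) :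
    ContDiffAt ℝ ∞ (shL23 s) w ∧ ContDiffAt ℝ ∞ (shH s) w ∧ ContDiffAt ℝ ∞ (shb s) w := by
  have h23 : ContDiffAt ℝ ∞ (shL23 s) w := by
    unfold shL23
    exact Real.contDiffAt_rpow_const_of_ne hw.ne'
  have hP : ContDiffAt ℝ ∞ shP w := shP_contDiff.contDiffAt
  have h12 : ContDiffAt ℝ ∞ (shL12 s) w := by
    unfold shL12
    exact hP.rpow_const_of_ne (shP_pos_of w hw').ne'
  have hH : ContDiffAt ℝ ∞ (shH s) w := by
    unfold shH
    exact (h12.pow 2).sub ((h23.pow 2).div_const 4)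
  refine ⟨h23, hH, ?_⟩
  unfold shb
  exact ((h23.pow 2).div_const 4).add ((hP.pow 2).mul hH)

/-- the apex equation is strictly decreasing in the shape parameter -/
theorem shF_strictAnti (s : ℝ) (hs : 0 < s) (ζ e : ℝ) (hζ : 0 ≤ ζ) (he : 0 ≤ e) (w w' : ℝ)
    (hw : 0 < w) (hww' : w < w') (hw' : 2 * w' ^ 2 < 1) : shF s w' ζ e < shF s w ζ e := by
  have hH := shH_lt s hs w w' hw hww' hw'
  have hw0' : 0 < w' := hw.trans hww'
  have h4 : w ^ 4 ≤ w' ^ 4 := pow_le_pow_left₀ hw.le hww'.le 4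
  have h2 : w ^ 2 ≤ w' ^ 2 := pow_le_pow_left₀ hw.le hww'.le 2
  have h1 : ζ / (4 * w' ^ 4) ≤ ζ / (4 * w ^ 4) :=
    div_le_div_of_nonneg_left hζ (by positivity) (by linarith)
  have h3 : 4 * e / (2 * w' ^ 2 + 1) ^ 2 ≤ 4 * e / (2 * w ^ 2 + 1) ^ 2 :=
    div_le_div_of_nonneg_left (by positivity) (by positivity)
      (pow_le_pow_left₀ (by positivity) (by linarith) 2)
  unfold shF
  linarith

theorem shF_deriv_neg (s : ℝ) (hs : 0 < s) (ζ e : ℝ) (hζ : 0 ≤ ζ) (he : 0 ≤ e) (w : ℝ)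
    (hw : 0 < w) (hw' : 2 * w ^ 2 < 1) : deriv (fun v => shF s v ζ e) w < 0 := by
  have hs2 : 0 < s + 2 := by positivity
  have hP : 0 < shP w := shP_pos_of w hw'
  -- first term
  have d4 : HasDerivAt (fun v : ℝ => 4 * v ^ 4) (4 * (4 * w ^ 3)) w := by
    simpa using (hasDerivAt_pow 4 w).const_mul (4:ℝ)
  have d1 : HasDerivAt (fun v : ℝ => ζ / (4 * v ^ 4))
      ((0 * (4 * w ^ 4) - ζ * (4 * (4 * w ^ 3))) / (4 * w ^ 4) ^ 2) w :=
    (hasDerivAt_const w ζ).fun_div d4 (by positivity)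
  have s1 : (0 * (4 * w ^ 4) - ζ * (4 * (4 * w ^ 3))) / (4 * w ^ 4) ^ 2 ≤ 0 := by
    apply div_nonpos_of_nonpos_of_nonneg
    · have : 0 ≤ ζ * (4 * (4 * w ^ 3)) := by positivity
      linarith
    · positivity
  -- second term
  have dq : HasDerivAt (fun v : ℝ => 2 * v ^ 2 + 1) (2 * (2 * w)) w := by
    simpa using ((hasDerivAt_pow 2 w).const_mul (2:ℝ)).add_const (1:ℝ)
  have dq2 : HasDerivAt (fun v : ℝ => (2 * v ^ 2 + 1) ^ 2)
      (2 * (2 * w ^ 2 + 1) * (2 * (2 * w))) w := by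
    simpa using dq.fun_pow 2
  have d2 : HasDerivAt (fun v : ℝ => 4 * e / (2 * v ^ 2 + 1) ^ 2)
      ((0 * (2 * w ^ 2 + 1) ^ 2 - 4 * e * (2 * (2 * w ^ 2 + 1) * (2 * (2 * w)))) /
        ((2 * w ^ 2 + 1) ^ 2) ^ 2) w :=
    (hasDerivAt_const w (4 * e)).fun_div dq2 (by positivity)
  have s2 : (0 * (2 * w ^ 2 + 1) ^ 2 - 4 * e * (2 * (2 * w ^ 2 + 1) * (2 * (2 * w)))) /
        ((2 * w ^ 2 + 1) ^ 2) ^ 2 ≤ 0 := by
    apply div_nonpos_of_nonpos_of_nonneg
    · have : 0 ≤ 4 * e * (2 * (2 * w ^ 2 + 1) * (2 * (2 * w))) := by positivity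
      linarith
    · positivity
  -- third term : shH
  have dP : HasDerivAt shP (-(2 * (2 * w))) w := by
    have : HasDerivAt (fun v : ℝ => 1 - 2 * v ^ 2) (-(2 * (2 * w))) w := by
      simpa using ((hasDerivAt_pow 2 w).const_mul (2:ℝ)).const_sub (1:ℝ)
    exact this
  have d12 : HasDerivAt (shL12 s)
      (-(2 * (2 * w)) * (-(1 / (s + 2))) * shP w ^ (-(1 / (s + 2)) - 1)) w := by
    unfold shL12
    exact dP.rpow_const (Or.inl hP.ne')
  have d23 : HasDerivAt (shL23 s) (-(2 / (s + 2)) * w ^ (-(2 / (s + 2)) - 1)) w := by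
    unfold shL23
    exact Real.hasDerivAt_rpow_const (Or.inl hw.ne')
  have d12s : HasDerivAt (fun v => (shL12 s v) ^ 2)
      (2 * shL12 s w * (-(2 * (2 * w)) * (-(1 / (s + 2))) * shP w ^ (-(1 / (s + 2)) - 1))) w := by
    simpa using d12.fun_pow 2
  have d23s : HasDerivAt (fun v => (shL23 s v) ^ 2)
      (2 * shL23 s w * (-(2 / (s + 2)) * w ^ (-(2 / (s + 2)) - 1))) w := by
    simpa using d23.fun_pow 2
  have dH : HasDerivAt (shH s)
      (2 * shL12 s w * (-(2 * (2 * w)) * (-(1 / (s + 2))) * shP w ^ (-(1 / (s + 2)) - 1)) -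
        2 * shL23 s w * (-(2 / (s + 2)) * w ^ (-(2 / (s + 2)) - 1)) / 4) w := by
    unfold shH
    exact d12s.sub (d23s.div_const 4)
  have s3 : 0 < 2 * shL12 s w * (-(2 * (2 * w)) * (-(1 / (s + 2))) * shP w ^ (-(1 / (s + 2)) - 1)) -
        2 * shL23 s w * (-(2 / (s + 2)) * w ^ (-(2 / (s + 2)) - 1)) / 4 := by
    have a1 : 0 < shL12 s w := lt_of_lt_of_le one_pos (shL12_ge_one s hs w hw hw')
    have a2 : 0 < shL23 s w := lt_of_lt_of_le one_pos (shL23_ge_one s hs w hw hw')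
    have a3 : 0 < shP w ^ (-(1 / (s + 2)) - 1) := Real.rpow_pos_of_pos hP _
    have a4 : 0 < w ^ (-(2 / (s + 2)) - 1) := Real.rpow_pos_of_pos hw _
    have e1 : 2 * shL12 s w * (-(2 * (2 * w)) * (-(1 / (s + 2))) * shP w ^ (-(1 / (s + 2)) - 1)) -
        2 * shL23 s w * (-(2 / (s + 2)) * w ^ (-(2 / (s + 2)) - 1)) / 4
        = 2 * shL12 s w * ((2 * (2 * w)) * (1 / (s + 2)) * shP w ^ (-(1 / (s + 2)) - 1)) +
        2 * shL23 s w * ((2 / (s + 2)) * w ^ (-(2 / (s + 2)) - 1)) / 4 := by ring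
    rw [e1]
    positivity
  have dF : HasDerivAt (fun v => shF s v ζ e)
      ((0 * (4 * w ^ 4) - ζ * (4 * (4 * w ^ 3))) / (4 * w ^ 4) ^ 2 +
        (0 * (2 * w ^ 2 + 1) ^ 2 - 4 * e * (2 * (2 * w ^ 2 + 1) * (2 * (2 * w)))) /
        ((2 * w ^ 2 + 1) ^ 2) ^ 2 -
        (2 * shL12 s w * (-(2 * (2 * w)) * (-(1 / (s + 2))) * shP w ^ (-(1 / (s + 2)) - 1)) -
        2 * shL23 s w * (-(2 / (s + 2)) * w ^ (-(2 / (s + 2)) - 1)) / 4)) w := by
    unfold shF
    exact (d1.add d2).sub dH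
  rw [dF.deriv]
  linarith

end Crest.Agent.Helper56
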